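import Vale.Agent.P308.QP.Defs

/-!
# Words for the approximation of hafnians: definitions
-/

namespace Vale.Agent.P308.Hafnian

open Vale.Agent.P308.QP

/-- the hafnian of a (symmetric) matrix: the sum over the perfect matchings of the complete graph
on `{0, ..., n - 1}` (given by the maps `f` without fixed points with `f (f x) = x`, the pairs are
`{x, f x}`) of the product of the entries at the pairs of the matching -/
def haf {R : Type*} [CommSemiring R] {n : ℕ} (A : Matrix (Fin n) (Fin n) R) : R :=
  ∑ f : Fin n → Fin n with ∀ x, f (f x) = x ∧ f x ≠ x, ∏ x with x < f x, A x (f x)

/-- a nonnegative rational number: numerator and denominator in binary -/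
def ratWord (q : ℚ≥0) : List Bool := block q.num.bits q.den.bits

/-- the word of a matrix: the words of the entries of a row are combined by `block`, then the rows
are combined by `block` -/
def matWord {n : ℕ} (A : Matrix (Fin n) (Fin n) ℚ≥0) : List Bool :=
  (List.ofFn fun i => (List.ofFn fun j => ratWord (A i j)).foldr block []).foldr block []

/-- the input word: the matrix, and the parameters `e`, `l` in unary -/
def hafWord {n : ℕ} (A : Matrix (Fin n) (Fin n) ℚ≥0) (e l : ℕ) : List Bool :=
  block (matWord A) (block (List.replicate e true) (List.replicate l true))

end Vale.Agent.P308.Hafnian
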