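import Vale.Agent.P308.H581.Red

/-!
# From matrices to graphs, the algorithm for rational matrices
-/

set_option linter.all false

namespace Vale.Agent.P308.Hafnian

open Vale.Agent.Lib.PolyTime Vale.Agent.P308.Alg Finset Function

theorem haf_eq_H {R : Type*} [CommSemiring R] {n : ℕ} (A : Matrix (Fin n) (Fin n) R) :
    haf A = H (fun a b => A a b) univ := by
  unfold haf H wt
  refine sum_congr ?_ fun f hf => ?_
  · ext f
    rw [mem_filter, mem_inv]
    constructor
    · rintro ⟨-, h⟩
      exact ⟨fun x _ => ⟨mem_univ _, (h x).2, (h x).1⟩, fun x hx => absurd (mem_univ x) hx⟩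
    · rintro ⟨h, -⟩
      exact ⟨mem_univ _, fun x => ⟨(h x (mem_univ x)).2.2, (h x (mem_univ x)).2.1⟩⟩
  · rw [prod_filter]

/-- The hafnian of the adjacency matrix is the number of perfect matchings. -/
theorem H_graph {n : ℕ} (G : SimpleGraph (Fin n)) [DecidableRel G.Adj] (B : Fin n → Fin n → ℕ)
    (hB : ∀ x y, x < y → B x y = if G.Adj x y then 1 else 0) :
    H B univ = Vale.Agent.P308.numPM G := by
  classical
  have h1 : ∀ f ∈ inv (univ : Finset (Fin n)),
      wt B univ f = if ∀ x, G.Adj x (f x) then 1 else 0 := by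
    intro f hf
    rw [mem_inv] at hf
    have hf1 := fun x => (hf.1 x (mem_univ x)).2
    unfold wt
    by_cases h : ∀ x, G.Adj x (f x)
    · rw [if_pos h]
      refine prod_eq_one fun z _ => ?_
      split_ifs with hz
      · rw [hB z (f z) hz, if_pos (h z)]
      · rfl
    · rw [if_neg h]
      push Not at h
      obtain ⟨x, hx⟩ := h
      rcases lt_or_gt_of_ne (hf1 x).1 with hlt | hlt
      · refine prod_eq_zero (mem_univ (f x)) ?_
        rw [(hf1 x).2, if_pos hlt, hB _ _ hlt, if_neg fun h => hx h.symm]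
      · refine prod_eq_zero (mem_univ x) ?_
        rw [if_pos hlt, hB _ _ hlt, if_neg hx]
  unfold H
  rw [sum_congr rfl h1, numPM_eq_card_filter, ← card_filter]
  symm
  refine card_bij (fun M _ => M.1) ?_ ?_ ?_
  · intro M hM
    rw [mem_filter] at hM
    rw [mem_filter, mem_inv]
    exact ⟨⟨fun x _ => ⟨mem_univ _, M.2.2 x, M.2.1 x⟩, fun x hx => absurd (mem_univ x) hx⟩, hM.2⟩
  · intro M _ M' _ h
    exact Subtype.ext h
  · intro f hf
    rw [mem_filter, mem_inv] at hf
    exact ⟨⟨f, fun x => (hf.1.1 x (mem_univ x)).2.2, fun x => (hf.1.1 x (mem_univ x)).2.1⟩,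
      mem_filter.2 ⟨mem_univ _, hf.2⟩, rfl⟩

/-- The graph of a matrix with entries `0`, `1`. -/
def gr (Q : List (List ℕ)) : SimpleGraph (Fin Q.length) :=
  SimpleGraph.fromRel fun x y => ent Q x y = 1

theorem gr_adj {Q : List (List ℕ)} (hQ : Sym Q) (x y : Fin Q.length) :
    (gr Q).Adj x y ↔ (x : ℕ) ≠ y ∧ ent Q x y = 1 := by
  unfold gr
  rw [SimpleGraph.fromRel_adj, hQ y x, or_self, Ne, Fin.ext_iff]

/-- The rows of the adjacency matrix. -/
def rowsW (Q : List (List ℕ)) : List Raw :=
  (List.range Q.length).map fun i =>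
    ⟨(List.range Q.length).map fun j => decide (¬ i = j ∧ ent Q i j = 1)⟩

theorem rows_gr {Q : List (List ℕ)} (hQ : Sym Q) : rows (gr Q) = rowsW Q := by
  classical
  unfold rows rowsW
  apply List.ext_getElem
  · simp
  intro i h1 h2
  rw [List.getElem_ofFn, List.getElem_map, List.getElem_range]
  congr 1
  apply List.ext_getElem
  · simp
  intro j h3 h4
  rw [List.getElem_ofFn, List.getElem_map, List.getElem_range]
  exact decide_eq_decide.2 (gr_adj hQ _ _)

/-- The hafnian is the number of perfect matchings of the graph of the reduced matrix. -/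
theorem numPM_gr {Q : List (List ℕ)} (hQ : Sym Q) :
    Vale.Agent.P308.numPM (gr (red Q)) = HQ Q := by
  classical
  have h1 : Sym (red Q) := (iter_spec hQ (num Q)).1
  have h2 : HQ (red Q) = HQ Q := (iter_spec hQ (num Q)).2.1
  rw [← h2]
  symm
  refine H_graph (gr (red Q)) _ fun x y hxy => ?_
  have h3 : ent (red Q) x y ≤ 1 := iter_le_one hQ (PQ_le Q) hxy y.2
  have h4 : (gr (red Q)).Adj x y ↔ ent (red Q) x y = 1 := by
    rw [gr_adj h1]
    exact ⟨fun h => h.2, fun h => ⟨(Fin.lt_def.1 hxy).ne, h⟩⟩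
  rw [if_congr h4 rfl rfl]
  show ent (red Q) x y = _
  split_ifs with h <;> omega

/-! ### Rational matrices -/

/-- the matrix as a list of lists of pairs -/
def matL {n : ℕ} (A : Matrix (Fin n) (Fin n) ℚ≥0) : List (List (ℕ × ℕ)) :=
  List.ofFn fun i => List.ofFn fun j => ((A i j).num, (A i j).den)

/-- entries -/
def entP (T : List (List (ℕ × ℕ))) (i j : ℕ) : ℕ × ℕ := (T.getD i []).getD j (0, 1)

/-- common denominator -/
def dn (T : List (List (ℕ × ℕ))) : ℕ := ((T.map fun r => r.map fun p => p.2).flatten).prod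

/-- integer matrix -/
def intM (T : List (List (ℕ × ℕ))) : List (List ℕ) :=
  Alg.mk T.length fun i j => (entP T i j).1 * (dn T / (entP T i j).2)

section Rat

variable {n : ℕ} (A : Matrix (Fin n) (Fin n) ℚ≥0)

theorem length_matL : (matL A).length = n := by simp [matL]

theorem entP_matL (i j : Fin n) : entP (matL A) i j = ((A i j).num, (A i j).den) := by
  simp [entP, matL, List.getD_eq_getElem?_getD, List.getElem?_ofFn]

theorem dn_pos : 0 < dn (matL A) := by
  unfold dn
  rw [Nat.pos_iff_ne_zero, Ne, List.prod_eq_zero_iff, List.mem_flatten]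
  rintro ⟨r, hr, h0⟩
  rw [List.mem_map] at hr
  obtain ⟨r', hr', rfl⟩ := hr
  rw [List.mem_map] at h0
  obtain ⟨p, hp, h0⟩ := h0
  unfold matL at hr'
  rw [List.mem_ofFn] at hr'
  obtain ⟨i, rfl⟩ := hr'
  rw [List.mem_ofFn] at hp
  obtain ⟨j, rfl⟩ := hp
  exact (A i j).den_ne_zero h0

theorem den_dvd (i j : Fin n) : (A i j).den ∣ dn (matL A) := by
  unfold dn
  apply List.dvd_prod
  rw [List.mem_flatten]
  refine ⟨(List.ofFn fun j => ((A i j).num, (A i j).den)).map fun p => p.2, ?_, ?_⟩
  · exact List.mem_map_of_mem (List.mem_ofFn.2 ⟨i, rfl⟩)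
  · rw [List.mem_map]
    exact ⟨_, List.mem_ofFn.2 ⟨j, rfl⟩, rfl⟩

theorem ent_intM (i j : Fin n) :
    ent (intM (matL A)) i j = (A i j).num * (dn (matL A) / (A i j).den) := by
  unfold intM
  rw [ent_mk _ (by rw [length_matL]; exact i.2) (by rw [length_matL]; exact j.2), entP_matL]

theorem ent_intM_cast (i j : Fin n) :
    ((ent (intM (matL A)) i j : ℕ) : ℚ≥0) = dn (matL A) * A i j := by
  rw [ent_intM]
  have h1 := den_dvd A i j
  have h2 : ((A i j).den : ℚ≥0) ≠ 0 := by exact_mod_cast (A i j).den_ne_zero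
  push_cast [Nat.cast_div h1 h2]
  conv_rhs => rw [← NNRat.num_div_den (A i j)]
  field_simp

theorem sym_intM (hA : A.IsSymm) : Sym (intM (matL A)) := by
  intro x y
  by_cases h : x < n ∧ y < n
  · have h1 := ent_intM A ⟨x, h.1⟩ ⟨y, h.2⟩
    have h2 := ent_intM A ⟨y, h.2⟩ ⟨x, h.1⟩
    rw [hA.apply] at h2
    exact h1.trans h2.symm
  · unfold intM
    rw [ent_mk_eq_zero _ (by rw [length_matL]; exact h),
      ent_mk_eq_zero _ (by rw [length_matL]; tauto)]

theorem length_intM : (intM (matL A)).length = n := by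
  unfold intM
  rw [length_mk, length_matL]

/-- The hafnian of the integer matrix. -/
theorem HQ_intM : ((HQ (intM (matL A)) : ℕ) : ℚ≥0) = (dn (matL A) : ℚ≥0) ^ (n / 2) * haf A := by
  have h1 : HQ (intM (matL A)) =
      haf (Matrix.of fun i j : Fin n => ent (intM (matL A)) i j) := by
    rw [haf_eq_H]
    unfold HQ HN
    rw [length_intM]
    rfl
  rw [h1]
  unfold haf
  rw [Nat.cast_sum, mul_sum]
  refine sum_congr rfl fun f hf => ?_
  rw [mem_filter] at hf
  rw [Nat.cast_prod]
  have h2 : ∀ x : Fin n, (((Matrix.of fun i j : Fin n => ent (intM (matL A)) i j) x (f x) : ℕ) :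
      ℚ≥0) = dn (matL A) * A x (f x) := fun x => ent_intM_cast A x (f x)
  rw [prod_congr rfl fun x _ => h2 x, prod_mul_distrib, prod_const]
  have h3 := card_pairs (n := n) ⟨f, fun x => (hf.2 x).1, fun x => (hf.2 x).2⟩
  have h4 : (univ.filter fun x => x < f x).card = n / 2 := by
    simp only at h3
    omega
  rw [h4]

theorem enc_matL (e l : ℕ) :
    hafWord A e l = enc ((matL A, (⟨e⟩, ⟨l⟩)) : List (List (ℕ × ℕ)) × (Un × Un)) := by
  have h1 : ∀ L : List (ℕ × ℕ), (L.map fun p => QP.block p.1.bits p.2.bits).foldr QP.block [] =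
      enc L := by
    intro L
    induction L with
    | nil => rfl
    | cons p L ih =>
      rw [List.map_cons, List.foldr_cons, ih, enc_cons, QP.block_eq, QP.block_eq]
      rfl
  have h2 : ∀ L : List (List (ℕ × ℕ)), (L.map fun r => enc r).foldr QP.block [] = enc L := by
    intro L
    induction L with
    | nil => rfl
    | cons p L ih => rw [List.map_cons, List.foldr_cons, ih, enc_cons, QP.block_eq]
  unfold hafWord
  rw [enc_pair, enc_pair, enc_un, enc_un, QP.block_eq, QP.block_eq]
  congr 1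
  rw [← h2]
  unfold matWord matL
  rw [List.map_ofFn]
  congr 2
  funext i
  show _ = enc _
  rw [← h1, List.map_ofFn]
  rfl

end Rat

end Vale.Agent.P308.Hafnian
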