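import Vale.Agent.P308.H581.Defs

/-!
# Hafnians: expansion along a row, insertion of two vertices
-/

set_option linter.all false

namespace Vale.Agent.P308.Hafnian

open Finset Function

section General

variable {V : Type*} [Fintype V] [LinearOrder V] {R : Type*} [CommSemiring R]

/-- the perfect matchings of `S` -/
def inv (S : Finset V) : Finset (V → V) :=
  univ.filter fun f => (∀ x ∈ S, f x ∈ S ∧ f x ≠ x ∧ f (f x) = x) ∧ ∀ x, x ∉ S → f x = x

/-- weight of a matching -/
def wt (B : V → V → R) (S : Finset V) (f : V → V) : R :=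
  ∏ z ∈ S, if z < f z then B z (f z) else 1

/-- hafnian of the part with index set `S` -/
def H (B : V → V → R) (S : Finset V) : R := ∑ f ∈ inv S, wt B S f

theorem mem_inv {S : Finset V} {f : V → V} :
    f ∈ inv S ↔ (∀ x ∈ S, f x ∈ S ∧ f x ≠ x ∧ f (f x) = x) ∧ ∀ x, x ∉ S → f x = x := by
  simp [inv]

theorem H_empty (B : V → V → R) : H B (∅ : Finset V) = 1 := by
  have : inv (∅ : Finset V) = {id} := by
    ext f
    rw [mem_inv]
    constructor
    · rintro ⟨-, h⟩
      rw [mem_singleton]
      funext x
      exact h x (by simp)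
    · intro h
      rw [mem_singleton] at h
      subst h
      simp
  rw [H, this, sum_singleton, wt, prod_empty]

theorem H_congr {B B' : V → V → R} {S : Finset V} (h : ∀ a ∈ S, ∀ b ∈ S, a ≠ b → B a b = B' a b) :
    H B S = H B' S := by
  unfold H wt
  refine sum_congr rfl fun f hf => prod_congr rfl fun z hz => ?_
  rw [mem_inv] at hf
  obtain ⟨h1, h2, -⟩ := hf.1 z hz
  rw [h z hz (f z) h1 h2.symm]

theorem H_expand (B : V → V → R) (hB : ∀ a b, B a b = B b a) {S : Finset V} {x : V} (hx : x ∈ S) :
    H B S = ∑ j ∈ S.erase x, B x j * H B ((S.erase x).erase j) := by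
  classical
  have h1 : ∀ f ∈ inv S, f x ∈ S.erase x := by
    intro f hf
    rw [mem_inv] at hf
    obtain ⟨h1, h2, -⟩ := hf.1 x hx
    exact mem_erase.2 ⟨h2, h1⟩
  unfold H
  rw [← sum_fiberwise_of_maps_to h1]
  refine sum_congr rfl fun j hj => ?_
  rw [mem_erase] at hj
  obtain ⟨hjx, hjS⟩ := hj
  rw [mul_sum]
  refine sum_bij' (fun f _ => update (update f x x) j j) (fun g _ => update (update g x j) j x)
    ?_ ?_ ?_ ?_ ?_
  · intro f hf
    rw [mem_filter, mem_inv] at hf
    obtain ⟨⟨hf1, hf2⟩, hfx⟩ := hf
    have hfj : f j = x := by rw [← hfx]; exact (hf1 x hx).2.2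
    rw [mem_inv]
    constructor
    · intro z hz
      simp only [mem_erase] at hz
      obtain ⟨hzj, hzx, hzS⟩ := hz
      obtain ⟨a1, a2, a3⟩ := hf1 z hzS
      have e1 : f z ≠ x := by
        intro h
        rw [h, hfx] at a3
        exact hzj a3.symm
      have e2 : f z ≠ j := by
        intro h
        rw [h, hfj] at a3
        exact hzx a3.symm
      simp only [mem_erase, update_of_ne hzj, update_of_ne hzx, update_of_ne e1, update_of_ne e2]
      exact ⟨⟨e2, e1, a1⟩, a2, a3⟩
    · intro z hz
      by_cases hzj : z = j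
      · rw [hzj, update_self]
      by_cases hzx : z = x
      · rw [hzx, update_of_ne hjx.symm, update_self]
      rw [update_of_ne hzj, update_of_ne hzx]
      apply hf2
      intro hzS
      exact hz (by simp [hzj, hzx, hzS])
  · intro g hg
    rw [mem_inv] at hg
    obtain ⟨hg1, hg2⟩ := hg
    have gx : g x = x := hg2 x (by simp)
    have gj : g j = j := hg2 j (by simp)
    rw [mem_filter, mem_inv]
    refine ⟨⟨?_, ?_⟩, ?_⟩
    · intro z hz
      by_cases hzj : z = j
      · subst hzj
        rw [update_self, update_of_ne hjx.symm, update_self]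
        exact ⟨hx, hjx.symm, rfl⟩
      by_cases hzx : z = x
      · subst hzx
        rw [update_of_ne hjx.symm, update_self, update_self]
        exact ⟨hjS, hjx, rfl⟩
      obtain ⟨a1, a2, a3⟩ := hg1 z (by simp [hzj, hzx, hz])
      simp only [mem_erase] at a1
      rw [update_of_ne hzj, update_of_ne hzx, update_of_ne a1.1, update_of_ne a1.2.1]
      exact ⟨a1.2.2, a2, a3⟩
    · intro z hz
      have hzj : z ≠ j := fun h => hz (h ▸ hjS)
      have hzx : z ≠ x := fun h => hz (h ▸ hx)
      rw [update_of_ne hzj, update_of_ne hzx]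
      exact hg2 z (by simp [hz])
    · rw [update_of_ne hjx.symm, update_self]
  · intro f hf
    rw [mem_filter, mem_inv] at hf
    obtain ⟨⟨hf1, hf2⟩, hfx⟩ := hf
    have hfj : f j = x := by rw [← hfx]; exact (hf1 x hx).2.2
    funext z
    by_cases hzj : z = j
    · rw [hzj, update_self, hfj]
    by_cases hzx : z = x
    · rw [hzx, update_of_ne hjx.symm, update_self, hfx]
    rw [update_of_ne hzj, update_of_ne hzx, update_of_ne hzj, update_of_ne hzx]
  · intro g hg
    rw [mem_inv] at hg
    obtain ⟨hg1, hg2⟩ := hg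
    have gx : g x = x := hg2 x (by simp)
    have gj : g j = j := hg2 j (by simp)
    funext z
    by_cases hzj : z = j
    · rw [hzj, update_self, gj]
    by_cases hzx : z = x
    · rw [hzx, update_of_ne hjx.symm, update_self, gx]
    rw [update_of_ne hzj, update_of_ne hzx, update_of_ne hzj, update_of_ne hzx]
  · intro f hf
    rw [mem_filter, mem_inv] at hf
    obtain ⟨⟨hf1, hf2⟩, hfx⟩ := hf
    have hfj : f j = x := by rw [← hfx]; exact (hf1 x hx).2.2
    unfold wt
    rw [← mul_prod_erase S _ hx, ← mul_prod_erase (S.erase x) _ (mem_erase.2 ⟨hjx, hjS⟩),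
      ← mul_assoc, hfx, hfj]
    congr 1
    · rcases lt_or_gt_of_ne hjx with h | h
      · rw [if_neg (not_lt.2 h.le), if_pos h, one_mul, hB]
      · rw [if_pos h, if_neg (not_lt.2 h.le), mul_one]
    · refine prod_congr rfl fun z hz => ?_
      simp only [mem_erase] at hz
      rw [update_of_ne hz.1, update_of_ne hz.2.1]

/-- **Insertion of two vertices** `x`, `y`: the entry at `u v` is increased by `B x u * B y v`. -/
theorem H_insert (B : V → V → R) (hB : ∀ a b, B a b = B b a) {S : Finset V} {x y u v : V}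
    (hx : x ∉ S) (hy : y ∉ S) (hxy : x ≠ y) (hu : u ∈ S) (hv : v ∈ S) (huv : u ≠ v)
    (h1 : B x y = 1) (hxz : ∀ z ∈ S, z ≠ u → B x z = 0) (hyz : ∀ z ∈ S, z ≠ v → B y z = 0) :
    H B (insert x (insert y S)) = H B S + B x u * B y v * H B ((S.erase u).erase v) := by
  have hxu : x ≠ u := fun h => hx (h ▸ hu)
  have hyu : y ≠ u := fun h => hy (h ▸ hu)
  have e1 : (insert x (insert y S)).erase x = insert y S := by
    rw [erase_insert]
    simp [hxy, hx]
  rw [H_expand B hB (mem_insert_self x _), e1, sum_insert hy, h1, one_mul, erase_insert hy]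
  congr 1
  rw [sum_eq_single_of_mem u hu]
  · rw [mul_assoc]
    congr 1
    have e2 : (insert y S).erase u = insert y (S.erase u) := by
      rw [erase_insert_of_ne hyu]
    rw [e2, H_expand B hB (mem_insert_self y _), erase_insert (by simp [hy])]
    rw [sum_eq_single_of_mem v (mem_erase.2 ⟨huv.symm, hv⟩)]
    intro z hz hzv
    rw [hyz z (mem_of_mem_erase hz) hzv, zero_mul]
  · intro z hz hzu
    rw [hxz z hz hzu, zero_mul]

/-- **Increase of one entry.** -/
theorem H_increase (B B0 : V → V → R) (hB : ∀ a b, B a b = B b a) (hB0 : ∀ a b, B0 a b = B0 b a)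
    {S : Finset V} {u v : V} (hu : u ∈ S) (hv : v ∈ S) (huv : u ≠ v) {t : R}
    (h1 : B0 u v = B u v + t)
    (h2 : ∀ a ∈ S, ∀ b ∈ S, ¬ (a = u ∧ b = v) → ¬ (a = v ∧ b = u) → B0 a b = B a b) :
    H B0 S = H B S + t * H B ((S.erase u).erase v) := by
  have key : ∀ z, H B0 ((S.erase u).erase z) = H B ((S.erase u).erase z) := by
    intro z
    refine H_congr fun a ha b hb _ => ?_
    simp only [mem_erase] at ha hb
    exact h2 a ha.2.2 b hb.2.2 (fun h => ha.2.1 h.1) (fun h => hb.2.1 h.2)
  have hv' : v ∈ S.erase u := mem_erase.2 ⟨huv.symm, hv⟩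
  rw [H_expand B0 hB0 hu, H_expand B hB hu, ← add_sum_erase _ _ hv', ← add_sum_erase _ _ hv', key,
    h1, add_mul, add_right_comm]
  congr 1
  congr 1
  refine sum_congr rfl fun z hz => ?_
  simp only [mem_erase] at hz
  rw [key, h2 u hu z hz.2.2 (fun h => hz.1 h.2) (fun h => huv h.1)]

/-- Transport along an injective map. -/
theorem H_map {W : Type*} [Fintype W] [LinearOrder W] (e : V ↪ W) (B : W → W → R)
    (hB : ∀ a b, B a b = B b a) (S : Finset V) :
    H B (S.map e) = H (fun a b => B (e a) (e b)) S := by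
  induction hn : S.card using Nat.strong_induction_on generalizing S with
  | _ n ih =>
    rcases S.eq_empty_or_nonempty with h | ⟨x, hx⟩
    · subst h
      rw [map_empty, H_empty, H_empty]
    · rw [H_expand B hB (mem_map_of_mem e hx), H_expand _ (fun a b => hB _ _) hx, ← map_erase,
        sum_map]
      refine sum_congr rfl fun j hj => ?_
      rw [← map_erase, ih _ ?_ _ rfl]
      rw [← hn]
      exact (card_lt_card ((erase_ssubset hj).trans (erase_ssubset hx)))

end General

/-- The hafnian of the upper left `N × N` block of an infinite matrix. -/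
def HN (N : ℕ) (B : ℕ → ℕ → ℕ) : ℕ := H (V := Fin N) (fun a b => B a b) univ

theorem HN_congr {N : ℕ} {B B' : ℕ → ℕ → ℕ} (h : ∀ x < N, ∀ y < N, B x y = B' x y) :
    HN N B = HN N B' :=
  H_congr fun a _ b _ _ => h a a.2 b b.2

/-- Two new vertices `N`, `N + 1` and the path `u, N, N + 1, v` with weights `c, 1, d`; the weight
of `u v` is replaced by `e`. -/
def insF (N : ℕ) (B : ℕ → ℕ → ℕ) (u v e c d x y : ℕ) : ℕ :=
  if (x = u ∧ y = v) ∨ (x = v ∧ y = u) then e
  else if x < N ∧ y < N then B x y
  else if (x = u ∧ y = N) ∨ (x = N ∧ y = u) then c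
  else if (x = N ∧ y = N + 1) ∨ (x = N + 1 ∧ y = N) then 1
  else if (x = N + 1 ∧ y = v) ∨ (x = v ∧ y = N + 1) then d
  else 0

section InsF

variable {N u v : ℕ} (B : ℕ → ℕ → ℕ) (e c d : ℕ)

theorem insF_uv : insF N B u v e c d u v = e := by simp [insF]

theorem insF_old {x y : ℕ} (hx : x < N) (hy : y < N) (h1 : ¬ (x = u ∧ y = v))
    (h2 : ¬ (x = v ∧ y = u)) : insF N B u v e c d x y = B x y := by
  rw [insF, if_neg (by tauto), if_pos ⟨hx, hy⟩]

theorem insF_symm (hB : ∀ x y, B x y = B y x) (x y : ℕ) :
    insF N B u v e c d x y = insF N B u v e c d y x := by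
  unfold insF
  rw [hB x y]
  congr 1
  · apply propext; tauto
  congr 1
  · apply propext; tauto
  congr 1
  · apply propext; tauto
  congr 1
  · apply propext; tauto
  congr 1
  apply propext; tauto

theorem insF_xu (hu : u < N) (hv : v < N) (huv : u ≠ v) : insF N B u v e c d N u = c := by
  unfold insF
  rw [if_neg (by omega), if_neg (by omega), if_pos (by omega)]

theorem insF_xz (hu : u < N) (hv : v < N) {z : ℕ} (hz : z < N) (h : z ≠ u) :
    insF N B u v e c d N z = 0 := by
  unfold insF
  rw [if_neg (by omega), if_neg (by omega), if_neg (by omega), if_neg (by omega),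
    if_neg (by omega)]

theorem insF_xy (hu : u < N) (hv : v < N) : insF N B u v e c d N (N + 1) = 1 := by
  unfold insF
  rw [if_neg (by omega), if_neg (by omega), if_neg (by omega), if_pos (by omega)]

theorem insF_yv (hu : u < N) (hv : v < N) : insF N B u v e c d (N + 1) v = d := by
  unfold insF
  rw [if_neg (by omega), if_neg (by omega), if_neg (by omega), if_neg (by omega),
    if_pos (by omega)]

theorem insF_yz (hu : u < N) (hv : v < N) {z : ℕ} (hz : z < N) (h : z ≠ v) :
    insF N B u v e c d (N + 1) z = 0 := by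
  unfold insF
  rw [if_neg (by omega), if_neg (by omega), if_neg (by omega), if_neg (by omega),
    if_neg (by omega)]

/-- **One insertion preserves the hafnian.** -/
theorem HN_insF (hB : ∀ x y, B x y = B y x) (hu : u < N) (hv : v < N) (huv : u ≠ v)
    (h : B u v = e + c * d) : HN (N + 2) (insF N B u v e c d) = HN N B := by
  set B' := insF N B u v e c d with hB'
  have hs : ∀ x y, B' x y = B' y x := fun x y => by rw [hB', insF_symm B e c d hB]
  let ι : Fin N ↪ Fin (N + 2) := Fin.castAddEmb 2
  have hι : ∀ a : Fin N, ((ι a : Fin (N + 2)) : ℕ) = a := fun a => rfl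
  let x : Fin (N + 2) := ⟨N, by omega⟩
  let y : Fin (N + 2) := ⟨N + 1, by omega⟩
  have hxS : x ∉ univ.map ι := by
    rw [mem_map]
    rintro ⟨a, -, ha⟩
    have := congrArg Fin.val ha
    rw [hι] at this
    have h2 := a.2
    simp only [x] at this
    omega
  have hyS : y ∉ univ.map ι := by
    rw [mem_map]
    rintro ⟨a, -, ha⟩
    have := congrArg Fin.val ha
    rw [hι] at this
    have h2 := a.2
    simp only [y] at this
    omega
  have hxy : x ≠ y := by
    intro h
    have := congrArg Fin.val h
    simp only [x, y] at this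
    omega
  have huniv : (univ : Finset (Fin (N + 2))) = insert x (insert y (univ.map ι)) := by
    ext a
    simp only [mem_univ, mem_insert, mem_map, true_and, true_iff]
    by_cases h1 : (a : ℕ) < N
    · right; right
      exact ⟨⟨a, h1⟩, Fin.ext rfl⟩
    by_cases h2 : (a : ℕ) = N
    · left
      exact Fin.ext h2
    · right; left
      have := a.2
      apply Fin.ext
      simp only [y]
      omega
  let u' : Fin N := ⟨u, hu⟩
  let v' : Fin N := ⟨v, hv⟩
  have huv' : u' ≠ v' := fun h => huv (congrArg Fin.val h)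
  have hS : ∀ z ∈ univ.map ι, ∃ a : Fin N, ι a = z := by
    intro z hz
    rw [mem_map] at hz
    obtain ⟨a, -, ha⟩ := hz
    exact ⟨a, ha⟩
  have e1 : HN (N + 2) B' = H (V := Fin (N + 2)) (fun a b => B' a b) (univ.map ι) +
      c * d * H (V := Fin (N + 2)) (fun a b => B' a b)
        (((univ.map ι).erase (ι u')).erase (ι v')) := by
    unfold HN
    rw [huniv, H_insert (V := Fin (N + 2)) (fun a b => B' a b) (fun a b => hs a b) hxS hyS hxy
      (mem_map_of_mem ι (mem_univ u')) (mem_map_of_mem ι (mem_univ v'))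
      (fun h => huv' (ι.injective h)) (insF_xy B e c d hu hv)]
    · congr 2
      congr 1
      · exact insF_xu B e c d hu hv huv
      · exact insF_yv B e c d hu hv
    · intro z hz hzu
      obtain ⟨a, rfl⟩ := hS z hz
      exact insF_xz B e c d hu hv a.2 fun h => hzu (by rw [show a = u' from Fin.ext h])
    · intro z hz hzv
      obtain ⟨a, rfl⟩ := hS z hz
      exact insF_yz B e c d hu hv a.2 fun h => hzv (by rw [show a = v' from Fin.ext h])
  have e2 : HN N B = H (V := Fin N) (fun a b => B' a b) univ +
      c * d * H (V := Fin N) (fun a b => B' a b) ((univ.erase u').erase v') := by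
    refine H_increase (V := Fin N) (fun a b => B' a b) (fun a b => B a b) (fun a b => hs a b)
      (fun a b => hB a b) (mem_univ u') (mem_univ v') huv' ?_ ?_
    · show B u v = B' u v + c * d
      rw [hB', insF_uv, h]
    · intro a _ b _ h1 h2
      exact (insF_old B e c d a.2 b.2 (fun h => h1 ⟨Fin.ext h.1, Fin.ext h.2⟩)
        (fun h => h2 ⟨Fin.ext h.1, Fin.ext h.2⟩)).symm
  rw [e1, e2, ← map_erase, ← map_erase, H_map ι _ (fun a b => hs a b),
    H_map ι _ (fun a b => hs a b)]
  rfl

end InsF

/-! ### The potential -/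

/-- number of binary digits after the first one -/
def phi (w : ℕ) : ℕ := Nat.size w - 1

/-- total number of binary digits after the first ones -/
def Phi (N : ℕ) (B : ℕ → ℕ → ℕ) : ℕ := ∑ y ∈ range N, ∑ x ∈ range y, phi (B x y)

theorem Phi_congr {N : ℕ} {B B' : ℕ → ℕ → ℕ} (h : ∀ x < N, ∀ y < N, B x y = B' x y) :
    Phi N B = Phi N B' := by
  unfold Phi
  refine sum_congr rfl fun y hy => sum_congr rfl fun x hx => ?_
  rw [mem_range] at hx hy
  rw [h x (by omega) y hy]

theorem Phi_insF {N u v : ℕ} (B : ℕ → ℕ → ℕ) (hB : ∀ x y, B x y = B y x) (e c d : ℕ) (huv : u < v) (hv : v < N) :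
    Phi (N + 2) (insF N B u v e c d) + phi (B u v) = Phi N B + phi e + phi c + phi d := by
  have hu : u < N := by omega
  set B' := insF N B u v e c d with hB'
  have hs : ∀ x y, B' x y = B' y x := fun x y => by rw [hB', insF_symm B e c d hB]
  have e1 : Phi (N + 2) B' = Phi N B' + ∑ x ∈ range N, phi (B' x N) +
      ∑ x ∈ range (N + 1), phi (B' x (N + 1)) := by
    unfold Phi
    rw [sum_range_succ, sum_range_succ]
  have e2 : ∑ x ∈ range N, phi (B' x N) = phi c := by
    rw [sum_eq_single_of_mem u (mem_range.2 hu), hs, hB', insF_xu B e c d hu hv huv.ne]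
    intro z hz hzu
    rw [hs, hB', insF_xz B e c d hu hv (mem_range.1 hz) hzu]
    rfl
  have e3 : ∑ x ∈ range (N + 1), phi (B' x (N + 1)) = phi d := by
    rw [sum_range_succ, hB', insF_xy B e c d hu hv, ← hB',
      sum_eq_single_of_mem v (mem_range.2 hv), hs, hB', insF_yv B e c d hu hv]
    · have : phi 1 = 0 := by simp [phi]
      rw [this, add_zero]
    intro z hz hzv
    rw [hs, hB', insF_yz B e c d hu hv (mem_range.1 hz) hzv]
    rfl
  have e4 : Phi N B' + phi (B u v) = Phi N B + phi e := by
    unfold Phi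
    rw [← add_sum_erase _ _ (mem_range.2 hv), ← add_sum_erase (range N) _ (mem_range.2 hv),
      ← add_sum_erase (range v) _ (mem_range.2 huv), ← add_sum_erase (range v) _ (mem_range.2 huv)]
    have e5 : ∑ y ∈ (range N).erase v, ∑ x ∈ range y, phi (B' x y) =
        ∑ y ∈ (range N).erase v, ∑ x ∈ range y, phi (B x y) := by
      refine sum_congr rfl fun y hy => sum_congr rfl fun x hx => ?_
      rw [mem_erase, mem_range] at hy
      rw [mem_range] at hx
      rw [hB', insF_old B e c d (by omega) hy.2 (by omega) (by omega)]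
    have e6 : ∑ x ∈ (range v).erase u, phi (B' x v) = ∑ x ∈ (range v).erase u, phi (B x v) := by
      refine sum_congr rfl fun x hx => ?_
      rw [mem_erase, mem_range] at hx
      rw [hB', insF_old B e c d (by omega) hv (by omega) (by omega)]
    rw [e5, e6, hB', insF_uv]
    ring
  rw [e1, e2, e3]
  omega

theorem phi_half {w : ℕ} (hw : 2 ≤ w) : phi (w / 2) + 1 = phi w := by
  unfold phi
  have h1 : Nat.size w = Nat.size (w / 2) + 1 := by
    have h2 := Nat.size_pos.2 (show 0 < w / 2 by omega)
    apply le_antisymm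
    · rw [Nat.size_le, pow_succ]
      have := Nat.lt_size_self (w / 2)
      omega
    · rw [Nat.succ_le_iff, Nat.lt_size]
      have h3 := (Nat.lt_size (m := Nat.size (w / 2) - 1) (n := w / 2)).1 (by omega)
      calc 2 ^ Nat.size (w / 2) = 2 * 2 ^ (Nat.size (w / 2) - 1) := by
            rw [← pow_succ']
            congr 1
            omega
        _ ≤ 2 * (w / 2) := by omega
        _ ≤ w := by omega
  have h2 := Nat.size_pos.2 (show 0 < w / 2 by omega)
  omega

theorem phi_le_one {w : ℕ} (hw : w ≤ 1) : phi w = 0 := by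
  unfold phi
  have : Nat.size w ≤ 1 := by rw [Nat.size_le]; omega
  omega

theorem phi_two : phi 2 = 1 := by
  have := phi_half (w := 2) le_rfl
  rw [← this, phi_le_one (by norm_num)]

theorem le_one_of_phi {w : ℕ} (hw : phi w = 0) : w ≤ 1 := by
  by_contra h
  have := phi_half (w := w) (by omega)
  omega

end Vale.Agent.P308.Hafnian
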