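import Vale.Agent.P308.H581.Graph

/-!
# A fully polynomial randomized approximation scheme for hafnians
-/

set_option linter.all false

namespace Vale.Agent.P308.Hafnian

open Vale.Agent.Lib.PolyTime Vale.Agent.P308.Alg Finset Function

/-! ### Polynomial time -/

section PT

variable {A : Set Word} {α : Type*} [Enc α]

theorem PT_rawCons (b : Bool) {f : α → Raw} (hf : PT A f) :
    PT A (fun a => Raw.mk (b :: (f a).w)) := by
  obtain ⟨F, hF, hF'⟩ := hf
  exact ⟨_, (FP.cons b).comp hF, fun a => by rw [hF']; rfl⟩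

theorem PT_mkRaw {f : α → List Bool} (hf : PT A f) : PT A (fun a => Raw.mk (f a)) := by
  have key : ∀ l : List Bool, l.foldr (fun b (w : Raw) => Raw.mk (b :: w.w)) (Raw.mk []) =
      Raw.mk l := by
    intro l
    induction l with
    | nil => rfl
    | cons b l ih => rw [List.foldr_cons, ih]
  have h1 : PT A (fun p : α × Bool × Raw => Raw.mk (p.2.1 :: p.2.2.w)) := by
    refine (PT.cond (c := fun p : α × Bool × Raw => p.2.1) PT.snd'.fst
      (PT_rawCons true PT.snd'.snd) (PT_rawCons false PT.snd'.snd)).congr fun p => ?_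
    rcases p with ⟨a, b, w⟩
    cases b <;> rfl
  refine (PT.foldr (init := fun _ => Raw.mk []) (f := fun _ b w => Raw.mk (b :: w.w)) hf
    (PT.const _) h1 (b := fun a => esize (f a)) hf.pbd fun a i => ?_).congr
    fun a => key _
  rw [key, esize_raw]
  have h3 := length_le_esize (f a)
  show ((f a).drop i).length ≤ _
  rw [List.length_drop]
  omega

theorem PT_rowsW {Q : α → List (List ℕ)} (hQ : PT A Q) : PT A (fun a => rowsW (Q a)) := by
  unfold rowsW
  have hN := hQ.length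
  have hNb := PBd.length hQ
  refine PT.map (f := fun (a : α) i => Raw.mk ((List.range (Q a).length).map fun j =>
    decide (¬ i = j ∧ ent (Q a) i j = 1))) (PT.range hN hNb) ?_
  refine PT_mkRaw (PT.map (f := fun (p : α × ℕ) j =>
    decide (¬ p.2 = j ∧ ent (Q p.1) p.2 j = 1))
    (PT.range (hN.comp PT.fst') (hNb.comp (PT.fst' (A := A)))) ?_)
  exact PT.decide_and (PT.decide_not (PT.eqNat PT.fst'.snd PT.snd'))
    (PT.eqNat (PT_ent (hQ.comp PT.fst'.fst) PT.fst'.snd PT.snd') (PT.const 1))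

theorem PT_dn {T : α → List (List (ℕ × ℕ))} (hT : PT A T) : PT A (fun a => dn (T a)) := by
  unfold dn
  refine PT.prod (PT.flatten (PT.map (f := fun (_ : α) r => r.map fun p => p.2) hT ?_))
  exact PT.map (f := fun (_ : α × List (ℕ × ℕ)) p => p.2) PT.snd' PT.snd'.snd

theorem PT_entP {T : α → List (List (ℕ × ℕ))} {i j : α → ℕ} (hT : PT A T) (hi : PT A i)
    (hj : PT A j) : PT A (fun a => entP (T a) (i a) (j a)) :=
  PT.getD (PT.getD hT hi (PT.const [])) hj (PT.const (0, 1))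

theorem PT_intM {T : α → List (List (ℕ × ℕ))} (hT : PT A T) : PT A (fun a => intM (T a)) := by
  unfold intM
  refine PT_mk hT.length (PBd.length hT) ?_
  have h1 : PT A (fun p : (α × ℕ) × ℕ => entP (T p.1.1) p.1.2 p.2) :=
    PT_entP (hT.comp PT.fst'.fst) PT.fst'.snd PT.snd'
  exact h1.fst.mul ((PT_dn (hT.comp PT.fst'.fst)).div h1.snd)

end PT

/-- inputs for the hafnian -/
abbrev InputH := List (List (ℕ × ℕ)) × (Un × Un)

/-- the number of random bits which are used -/
def need (d : ℕ) (x : InputH) : ℕ := ((red (intM x.1)).length + x.2.1.v + x.2.2.v + 2) ^ d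

/-- the algorithm for hafnians -/
def algH (alg : Input × Raw → ℕ) (d : ℕ) (x : InputH × Raw) : ℕ × ℕ :=
  (alg ((rowsW (red (intM x.1.1)), x.1.2), ⟨x.2.w.take (need d x.1)⟩),
    dn x.1.1 ^ (x.1.1.length / 2))

theorem PT_redI : PT ∅ (fun x : InputH => red (intM x.1)) := PT_red (PT_intM PT.fst')

theorem PT_need (d : ℕ) : PT ∅ (need d) := by
  unfold need
  exact PT.powConst (((PT_redI.length.add (PT.unVal PT.snd'.fst)).add
    (PT.unVal PT.snd'.snd)).add (PT.const 2)) d

theorem PT_algH {alg : Input × Raw → ℕ} (h : PT ∅ alg) (d : ℕ) : PT ∅ (algH alg d) := by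
  unfold algH
  have hT : PT ∅ (fun x : InputH × Raw => x.1.1) := PT.fst'.fst
  refine PT.pair (h.comp (PT.pair (PT.pair (PT_rowsW (PT_redI.comp PT.fst')) PT.fst'.snd)
    (PT.rawTake PT.snd' ((PT_need d).comp PT.fst')))) ?_
  refine PT.pow (PT_dn hT) hT.length.half ?_
  exact (PBd.length hT).mono fun a => Nat.div_le_self _ _

/-- Only the first bits matter. -/
theorem prob_take {a N : ℕ} (haN : a ≤ N) (P : List Bool → Prop) :
    Alg.prob N (fun w => P (w.take a)) ≤ Alg.prob a P := by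
  obtain ⟨b, rfl⟩ := Nat.exists_eq_add_of_le haN
  have h := prob_add_le a b P (fun w => P (w.take a)) (be := Alg.prob a P) (ga := 0) le_rfl le_rfl
    (fun u hu hP => ?_)
  · linarith
  · refine le_of_eq (prob_false b fun v _ h => hP ?_)
    rwa [List.take_append_of_le_length (by omega), List.take_of_length_le (by omega)] at h

/-- Length of the input word. -/
theorem length_hafWord {n : ℕ} (A : Matrix (Fin n) (Fin n) ℚ≥0) (e l : ℕ) :
    (hafWord A e l).length = 2 * (matWord A).length + (2 * e + l + 1) + 1 := by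
  unfold hafWord
  rw [QP.block_eq, QP.block_eq, length_pr, length_pr, List.length_replicate,
    List.length_replicate]

/-- **There is a fully polynomial randomized approximation scheme for the hafnian of symmetric
matrices with nonnegative rational entries.** -/
theorem exists_haf_fpras :
    ∃ (f : List Bool → List Bool)
      (M : Turing.TM2ComputableInPolyTime (id : List Bool → List Bool)
        (id : List Bool → List Bool) f), (∀ k, Finite (M.tm.Γ k)) ∧
      ∃ d d' : ℕ, ∀ (n : ℕ) (A : Matrix (Fin n) (Fin n) ℚ≥0), A.IsSymm →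
        ∀ ε δ : ℝ, 0 < ε → ε < 1 → 0 < δ → δ < 1 →
        ∀ e l b : ℕ, e = ⌈1 / ε⌉₊ → l = ⌈Real.logb 2 (1 / δ)⌉₊ →
          b = (matWord A).length + e + l + 2 →
          (∀ w : List Bool, w.length = b ^ d →
            M.time.eval (QP.block (hafWord A e l) w).length ≤ b ^ d') ∧
          1 - δ ≤ QP.prob (b ^ d) fun w => ∃ a c : ℕ, 0 < c ∧
            f (QP.block (hafWord A e l) w) = QP.block a.bits c.bits ∧
            (1 - ε) * ((haf A : ℚ≥0) : ℝ) ≤ (a : ℝ) / c ∧ (a : ℝ) / c ≤ (1 + ε) * ((haf A : ℚ≥0) : ℝ) := by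
  obtain ⟨c2, c3, c4, c5, c6, d, hgood⟩ := PA.alg_good_of 22 _ (PA.roundsGood_of 22 M1_holds)
    (PA.mixedOf_of Lin.gap Rep.rep_statement PA.cStmt (le_refl _))
  set alg := PA.alg 22 c2 c3 c4 c5 c6 d with halg
  have hPT : PT ∅ alg := PA.PT_alg 22 c2 c3 c4 c5 c6 d
  obtain ⟨g, hg, hg'⟩ := PT_algH hPT d
  obtain ⟨M, hM⟩ := exists_tm2_of_polyTimeFun id id g g (polyTimeFun_iff.2 hg) fun _ => rfl
  obtain ⟨k, hk⟩ := PA.poly_le' M.time
  have hb : PBd (fun x : InputH => (red (intM x.1)).length + x.2.1.v + x.2.2.v + 2) :=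
    (((PBd.length PT_redI).add ((PT.pbd (A := ∅) (f := fun x : InputH => x.2.1)
      PT.snd'.fst).mono fun a => (esize_un _).ge)).add ((PT.pbd (A := ∅)
      (f := fun x : InputH => x.2.2) PT.snd'.snd).mono fun a => (esize_un _).ge)).add
      (PBd.const 2)
  obtain ⟨c, hc⟩ := hb
  have key : ∀ (n : ℕ) (A : Matrix (Fin n) (Fin n) ℚ≥0) (e l : ℕ) (w : List Bool),
      g (QP.block (hafWord A e l) w) =
        QP.block (algH alg d ((matL A, (⟨e⟩, ⟨l⟩)), ⟨w⟩)).1.bits
          (algH alg d ((matL A, (⟨e⟩, ⟨l⟩)), ⟨w⟩)).2.bits := by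
    intro n A e l w
    have h1 := hg' ((matL A, (⟨e⟩, ⟨l⟩)), ⟨w⟩)
    rw [enc_pair, enc_raw, ← enc_matL, ← QP.block_eq] at h1
    rw [h1, QP.block_eq]
    rfl
  refine ⟨g, M, hM, 2 * (c * d), k + k * (2 * (c * d) + 4), ?_⟩
  intro n A hA ε δ hε hε1 hδ hδ1 e l b he hl hb
  have hb2 : 2 ≤ b := by omega
  have hlen := length_hafWord A e l
  have hlen2 : (hafWord A e l).length + 2 ≤ 2 * b := by omega
  constructor
  · intro w hw
    refine hk b _ (2 * (c * d) + 4) hb2 ?_
    rw [QP.block_eq, length_pr, hw]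
    have e1 : 4 * b ≤ b ^ 3 := by
      have : b ^ 3 = b * b * b := by ring
      rw [this]
      exact Nat.mul_le_mul_right _ (Nat.mul_le_mul hb2 hb2)
    have e2 : b ^ 3 ≤ b ^ (2 * (c * d) + 3) := Nat.pow_le_pow_right (by omega) (by omega)
    have e3 : b ^ (2 * (c * d)) ≤ b ^ (2 * (c * d) + 3) :=
      Nat.pow_le_pow_right (by omega) (by omega)
    have e4 : 2 * b ^ (2 * (c * d) + 3) ≤ b ^ (2 * (c * d) + 4) := by
      rw [pow_succ _ (2 * (c * d) + 3), mul_comm]
      exact Nat.mul_le_mul_left _ hb2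
    omega
  · have he0 : 0 < e := by
      rw [he]
      exact Nat.ceil_pos.2 (by positivity)
    have her : (0 : ℝ) < e := by exact_mod_cast he0
    have h1 : 1 / (e : ℝ) ≤ ε := by
      have h2 : 1 / ε ≤ e := by
        rw [he]
        exact Nat.le_ceil _
      rw [div_le_iff₀ hε] at h2
      rw [div_le_iff₀ her]
      linarith only [h2]
    have h2 : ((1 : ℝ) / 2) ^ l ≤ δ := by
      have h3 : Real.logb 2 (1 / δ) ≤ l := by
        rw [hl]
        exact Nat.le_ceil _
      have h4 : 1 / δ ≤ 2 ^ l := by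
        have h5 : (1 / δ) = (2 : ℝ) ^ (Real.logb 2 (1 / δ)) := by
          rw [Real.rpow_logb (by norm_num) (by norm_num) (by positivity)]
        rw [h5, ← Real.rpow_natCast]
        exact Real.rpow_le_rpow_of_exponent_le (by norm_num) h3
      rw [one_div, inv_pow, ← one_div, div_le_iff₀ (by positivity)]
      rw [div_le_iff₀ hδ] at h4
      linarith only [h4]
    set Q := intM (matL A) with hQ
    have hsym : Sym Q := sym_intM A hA
    have hsym' : Sym (red Q) := (iter_spec hsym (num Q)).1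
    have hneed : need d (matL A, (⟨e⟩, ⟨l⟩)) ≤ b ^ (2 * (c * d)) := by
      have e1 := hc (matL A, (⟨e⟩, ⟨l⟩))
      have e2 : esize ((matL A, (⟨e⟩, ⟨l⟩)) : InputH) + 2 ≤ 2 * b := by
        have : esize ((matL A, (⟨e⟩, ⟨l⟩)) : InputH) = (hafWord A e l).length := by
          rw [enc_matL]
          rfl
        omega
      calc need d (matL A, (⟨e⟩, ⟨l⟩))
          ≤ (pb c (esize ((matL A, (⟨e⟩, ⟨l⟩)) : InputH))) ^ d := Nat.pow_le_pow_left e1 d
        _ = (esize ((matL A, (⟨e⟩, ⟨l⟩)) : InputH) + 2) ^ (c * d) := by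
            rw [pb, ← pow_mul]
        _ ≤ (b * b) ^ (c * d) := Nat.pow_le_pow_left
            (e2.trans (Nat.mul_le_mul_right _ hb2)) _
        _ = b ^ (2 * (c * d)) := by
            rw [← pow_two, ← pow_mul]
    have h3 := hgood (red Q).length (gr (red Q)) e l he0
    rw [rows_gr hsym', numPM_gr hsym] at h3
    have h4 := QP.one_sub_prob_le (b ^ (2 * (c * d))) (fun w => ∃ a c : ℕ, 0 < c ∧
            g (QP.block (hafWord A e l) w) = QP.block a.bits c.bits ∧
            (1 - ε) * ((haf A : ℚ≥0) : ℝ) ≤ (a : ℝ) / c ∧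
            (a : ℝ) / c ≤ (1 + ε) * ((haf A : ℚ≥0) : ℝ))
    have hcpos : 0 < dn (matL A) ^ (n / 2) := pow_pos (dn_pos A) _
    have hcr : (0 : ℝ) < ((dn (matL A) ^ (n / 2) : ℕ) : ℝ) := by exact_mod_cast hcpos
    have hH : ((HQ Q : ℕ) : ℝ) =
        ((dn (matL A) ^ (n / 2) : ℕ) : ℝ) * ((haf A : ℚ≥0) : ℝ) := by
      have := congrArg (fun q : ℚ≥0 => (q : ℝ)) (HQ_intM A)
      push_cast at this ⊢
      exact this
    have hh0 : (0 : ℝ) ≤ ((haf A : ℚ≥0) : ℝ) := by positivity
    have h5 : QP.prob (b ^ (2 * (c * d))) (fun w => ¬ ∃ a c : ℕ, 0 < c ∧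
            g (QP.block (hafWord A e l) w) = QP.block a.bits c.bits ∧
            (1 - ε) * ((haf A : ℚ≥0) : ℝ) ≤ (a : ℝ) / c ∧
            (a : ℝ) / c ≤ (1 + ε) * ((haf A : ℚ≥0) : ℝ)) ≤ (1 / 2) ^ l := by
      refine le_trans ?_ ((prob_take hneed _).trans h3)
      refine prob_mono _ fun w _ hw hgd => hw ?_
      refine ⟨_, _, ?_, key n A e l w, ?_, ?_⟩
      · show 0 < dn (matL A) ^ ((matL A).length / 2)
        rw [length_matL]
        exact hcpos
      · show _ ≤ ((alg ((rowsW (red Q), (⟨e⟩, ⟨l⟩)), ⟨w.take (need d (matL A, (⟨e⟩, ⟨l⟩)))⟩) : ℕ) : ℝ) /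
          ((dn (matL A) ^ ((matL A).length / 2) : ℕ) : ℝ)
        rw [length_matL, le_div_iff₀ hcr]
        refine le_trans ?_ hgd.1
        rw [hH]
        have : (1 - ε) ≤ (1 - 1 / (e : ℝ)) := by linarith
        calc (1 - ε) * ((haf A : ℚ≥0) : ℝ) * ((dn (matL A) ^ (n / 2) : ℕ) : ℝ)
            ≤ (1 - 1 / (e : ℝ)) * ((haf A : ℚ≥0) : ℝ) * ((dn (matL A) ^ (n / 2) : ℕ) : ℝ) := by
              gcongr
          _ = _ := by ring
      · show ((alg ((rowsW (red Q), (⟨e⟩, ⟨l⟩)), ⟨w.take (need d (matL A, (⟨e⟩, ⟨l⟩)))⟩) : ℕ) : ℝ) /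
          ((dn (matL A) ^ ((matL A).length / 2) : ℕ) : ℝ) ≤ _
        rw [length_matL, div_le_iff₀ hcr]
        refine le_trans hgd.2 ?_
        rw [hH]
        calc (1 + 1 / (e : ℝ)) * (((dn (matL A) ^ (n / 2) : ℕ) : ℝ) * ((haf A : ℚ≥0) : ℝ))
            = (1 + 1 / (e : ℝ)) * ((haf A : ℚ≥0) : ℝ) * ((dn (matL A) ^ (n / 2) : ℕ) : ℝ) := by
              ring
          _ ≤ _ := by gcongr
    linarith only [h2, h4, h5]

end Vale.Agent.P308.Hafnian
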