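import Vale.Agent.P308.H581.Haf
import Vale.Agent.P308.Bd3.B8

/-!
# The reduction of hafnians of matrices of natural numbers to the number of perfect matchings
-/

set_option linter.all false

namespace Vale.Agent.P308.Hafnian

open Vale.Agent.Lib.PolyTime Vale.Agent.P308.Alg Finset Function

/-- insertion of two vertices -/
def ins (Q : List (List ℕ)) (u v e c d : ℕ) : List (List ℕ) :=
  Alg.mk (Q.length + 2) (insF Q.length (ent Q) u v e c d)

/-- all pairs -/
def pairs (N : ℕ) : List (ℕ × ℕ) :=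
  ((List.range N).map fun i => (List.range N).map fun j => (i, j)).flatten

/-- the first entry which is at least two -/
def find (Q : List (List ℕ)) : Option (ℕ × ℕ) :=
  ((pairs Q.length).filter fun p => decide (p.1 < p.2) && decide (2 ≤ ent Q p.1 p.2)).head?

/-- one step of the reduction: the first entry `w ≥ 2` is replaced by `w % 2`, by a path through
two new vertices with weights `w / 2, 1, 2`, and the entry `2` by `1` and a path with weights
`1, 1, 1` through two more new vertices -/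
def step (Q : List (List ℕ)) : List (List ℕ) :=
  match find Q with
  | none => Q
  | some p => ins (ins Q p.1 p.2 (ent Q p.1 p.2 % 2) (ent Q p.1 p.2 / 2) 2) p.2 (Q.length + 1) 1 1 1

theorem length_mk (n : ℕ) (g : ℕ → ℕ → ℕ) : (Alg.mk n g).length = n := by simp [Alg.mk]

theorem mem_pairs {N : ℕ} {p : ℕ × ℕ} : p ∈ pairs N ↔ p.1 < N ∧ p.2 < N := by
  obtain ⟨i, j⟩ := p
  simp [pairs]

theorem find_some {Q : List (List ℕ)} {p : ℕ × ℕ} (h : find Q = some p) :
    p.1 < p.2 ∧ p.2 < Q.length ∧ 2 ≤ ent Q p.1 p.2 := by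
  have h1 := List.mem_of_mem_head? (Option.mem_def.2 h)
  rw [List.mem_filter, mem_pairs] at h1
  simp only [Bool.and_eq_true, decide_eq_true_eq] at h1
  exact ⟨h1.2.1, h1.1.2, h1.2.2⟩

theorem find_none {Q : List (List ℕ)} (h : find Q = none) {x y : ℕ} (hxy : x < y)
    (hy : y < Q.length) : ent Q x y ≤ 1 := by
  unfold find at h
  rw [List.head?_eq_none_iff, List.filter_eq_nil_iff] at h
  have := h (x, y) (mem_pairs.2 ⟨by show x < _; omega, hy⟩)
  simp only [Bool.and_eq_true, decide_eq_true_eq, not_and, not_le] at this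
  have := this hxy
  omega

/-- symmetric matrices -/
def Sym (Q : List (List ℕ)) : Prop := ∀ x y, ent Q x y = ent Q y x

/-- hafnian -/
def HQ (Q : List (List ℕ)) : ℕ := HN Q.length (ent Q)

/-- potential -/
def PQ (Q : List (List ℕ)) : ℕ := Phi Q.length (ent Q)

theorem sym_mk {n : ℕ} {g : ℕ → ℕ → ℕ} (h : ∀ x y, g x y = g y x) : Sym (Alg.mk n g) := by
  intro x y
  by_cases hxy : x < n ∧ y < n
  · rw [ent_mk g hxy.1 hxy.2, ent_mk g hxy.2 hxy.1, h]
  · rw [ent_mk_eq_zero g hxy, ent_mk_eq_zero g (by tauto)]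

theorem sym_ins {Q : List (List ℕ)} (hQ : Sym Q) (u v e c d : ℕ) : Sym (ins Q u v e c d) :=
  sym_mk (insF_symm _ e c d hQ)

theorem length_ins (Q : List (List ℕ)) (u v e c d : ℕ) :
    (ins Q u v e c d).length = Q.length + 2 := length_mk _ _

theorem HQ_ins {Q : List (List ℕ)} (hQ : Sym Q) {u v e c d : ℕ} (huv : u < v)
    (hv : v < Q.length) (h : ent Q u v = e + c * d) : HQ (ins Q u v e c d) = HQ Q := by
  unfold HQ
  rw [length_ins, ← HN_insF (ent Q) e c d hQ (by omega) hv huv.ne h]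
  exact HN_congr fun x hx y hy => ent_mk _ hx hy

theorem PQ_ins {Q : List (List ℕ)} (hQ : Sym Q) {u v : ℕ} (e c d : ℕ) (huv : u < v)
    (hv : v < Q.length) :
    PQ (ins Q u v e c d) + phi (ent Q u v) = PQ Q + phi e + phi c + phi d := by
  unfold PQ
  rw [length_ins, ← Phi_insF (ent Q) hQ e c d huv hv]
  congr 1
  exact Phi_congr fun x hx y hy => ent_mk _ hx hy

theorem ent_ins_yv {Q : List (List ℕ)} {u v e c d : ℕ} (hu : u < Q.length) (hv : v < Q.length)
    (hQ : Sym Q) : ent (ins Q u v e c d) v (Q.length + 1) = d := by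
  rw [sym_ins hQ, ins, ent_mk _ (by omega) (by omega), insF_yv _ e c d hu hv]

theorem insF_le {N : ℕ} {B : ℕ → ℕ → ℕ} {u v e c d M : ℕ} (hB : ∀ x y, B x y ≤ M) (he : e ≤ M)
    (hc : c ≤ M) (hd : d ≤ M) (h1 : 1 ≤ M) (x y : ℕ) : insF N B u v e c d x y ≤ M := by
  unfold insF
  split_ifs
  · exact he
  · exact hB _ _
  · exact hc
  · exact h1
  · exact hd
  · exact Nat.zero_le _

theorem ins_le {Q : List (List ℕ)} {u v e c d M : ℕ} (hB : ∀ x y, ent Q x y ≤ M) (he : e ≤ M)
    (hc : c ≤ M) (hd : d ≤ M) (h1 : 1 ≤ M) (x y : ℕ) : ent (ins Q u v e c d) x y ≤ M :=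
  ent_mk_le (fun i a => insF_le hB he hc hd h1 i a) x y

/-- What one step does. -/
theorem step_spec {Q : List (List ℕ)} (hQ : Sym Q) :
    Sym (step Q) ∧ HQ (step Q) = HQ Q ∧ PQ (step Q) ≤ PQ Q - 1 := by
  unfold step
  rcases h : find Q with _ | p
  · dsimp only
    refine ⟨hQ, rfl, ?_⟩
    have : PQ Q = 0 := by
      unfold PQ Phi
      refine sum_eq_zero fun y hy => sum_eq_zero fun x hx => ?_
      rw [mem_range] at hx hy
      exact phi_le_one (find_none h hx hy)
    omega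
  · dsimp only
    obtain ⟨h1, h2, h3⟩ := find_some h
    set w := ent Q p.1 p.2 with hw
    set Q1 := ins Q p.1 p.2 (w % 2) (w / 2) 2 with hQ1
    have hQ1s : Sym Q1 := sym_ins hQ _ _ _ _ _
    have hlen : Q1.length = Q.length + 2 := length_ins _ _ _ _ _ _
    have h4 : ent Q1 p.2 (Q.length + 1) = 2 := ent_ins_yv (by omega) h2 hQ
    refine ⟨sym_ins hQ1s _ _ _ _ _, ?_, ?_⟩
    · rw [HQ_ins hQ1s (by omega) (by omega) (by rw [h4])]
      exact HQ_ins hQ h1 h2 (by omega)
    · have e1 := PQ_ins hQ1s 1 1 1 (u := p.2) (v := Q.length + 1) (by omega) (by omega)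
      have e2 := PQ_ins hQ (w % 2) (w / 2) 2 h1 h2
      rw [h4, phi_two, phi_le_one (le_refl 1)] at e1
      rw [← hw, phi_two, phi_le_one (w := w % 2) (by omega), ← phi_half h3] at e2
      rw [← hQ1] at e2
      omega

theorem iter_spec {Q : List (List ℕ)} (hQ : Sym Q) (k : ℕ) :
    Sym (step^[k] Q) ∧ HQ (step^[k] Q) = HQ Q ∧ PQ (step^[k] Q) ≤ PQ Q - k := by
  induction k with
  | zero => exact ⟨hQ, rfl, le_rfl⟩
  | succ k ih =>
    rw [iterate_succ_apply']
    obtain ⟨h1, h2, h3⟩ := step_spec ih.1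
    exact ⟨h1, h2.trans ih.2.1, by omega⟩

/-- After sufficiently many steps all entries are at most one. -/
theorem iter_le_one {Q : List (List ℕ)} (hQ : Sym Q) {k : ℕ} (hk : PQ Q ≤ k) {x y : ℕ}
    (hxy : x < y) (hy : y < (step^[k] Q).length) : ent (step^[k] Q) x y ≤ 1 := by
  have h := (iter_spec hQ k).2.2
  have h0 : PQ (step^[k] Q) = 0 := by omega
  unfold PQ Phi at h0
  rw [sum_eq_zero_iff] at h0
  have h1 := h0 y (mem_range.2 hy)
  rw [sum_eq_zero_iff] at h1
  exact le_one_of_phi (h1 x (mem_range.2 hxy))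

/-! ### Sizes -/

theorem ent_lt (Q : List (List ℕ)) (x y : ℕ) : Nat.size (ent Q x y) ≤ esize Q := by
  unfold ent
  rw [List.getD_eq_getElem?_getD, List.getD_eq_getElem?_getD]
  rcases h : Q[x]? with _ | r
  · simp
  · rw [Option.getD_some]
    rcases h' : r[y]? with _ | a
    · simp
    · rw [Option.getD_some, ← esize_nat]
      exact (esize_le_of_mem (List.mem_of_getElem? h')).trans
        (esize_le_of_mem (List.mem_of_getElem? h))

theorem step_shape {Q : List (List ℕ)} {M n : ℕ} (hM : 2 ≤ M) (hB : ∀ x y, ent Q x y ≤ M)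
    (hn : Q.length ≤ n) :
    (∀ x y, ent (step Q) x y ≤ M) ∧ (step Q).length ≤ n + 4 ∧ (step Q = Q ∨
      ∃ n' g, n' ≤ n + 4 ∧ (∀ i a, g i a ≤ M) ∧ step Q = Alg.mk n' g) := by
  unfold step
  rcases h : find Q with _ | p
  · dsimp only
    exact ⟨hB, by omega, Or.inl rfl⟩
  · dsimp only
    have h1 : ∀ x y, ent (ins Q p.1 p.2 (ent Q p.1 p.2 % 2) (ent Q p.1 p.2 / 2) 2) x y ≤ M :=
      ins_le hB ((Nat.mod_le _ _).trans (hB _ _)) ((Nat.div_le_self _ _).trans (hB _ _)) hM
        (by omega)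
    refine ⟨ins_le h1 (by omega) (by omega) (by omega) (by omega), ?_, Or.inr ⟨_, _, ?_, ?_, rfl⟩⟩
    · rw [length_ins, length_ins]
      omega
    · rw [length_ins]
      omega
    · exact fun i a => insF_le h1 (by omega) (by omega) (by omega) (by omega) i a

theorem iter_shape {Q : List (List ℕ)} {M n : ℕ} (hM : 2 ≤ M) (hB : ∀ x y, ent Q x y ≤ M)
    (hn : Q.length ≤ n) (k : ℕ) :
    (∀ x y, ent (step^[k] Q) x y ≤ M) ∧ (step^[k] Q).length ≤ n + 4 * k ∧ (step^[k] Q = Q ∨
      ∃ n' g, n' ≤ n + 4 * k ∧ (∀ i a, g i a ≤ M) ∧ step^[k] Q = Alg.mk n' g) := by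
  induction k with
  | zero => exact ⟨hB, by simpa using hn, Or.inl rfl⟩
  | succ k ih =>
    rw [iterate_succ_apply']
    obtain ⟨h1, h2, h3⟩ := ih
    obtain ⟨e1, e2, e3⟩ := step_shape hM h1 h2
    refine ⟨e1, by omega, ?_⟩
    rcases e3 with e3 | ⟨n', g, e4, e5, e6⟩
    · rw [e3]
      rcases h3 with h3 | ⟨n', g, h4, h5, h6⟩
      · exact Or.inl h3
      · exact Or.inr ⟨n', g, by omega, h5, h6⟩
    · exact Or.inr ⟨n', g, by omega, e5, e6⟩

/-- number of steps -/
def num (Q : List (List ℕ)) : ℕ := Q.length * Q.length * esize Q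

/-- the reduction -/
def red (Q : List (List ℕ)) : List (List ℕ) := step^[num Q] Q

theorem PQ_le (Q : List (List ℕ)) : PQ Q ≤ num Q := by
  unfold PQ Phi num
  have h : ∀ y ∈ range Q.length, ∑ x ∈ range y, phi (ent Q x y) ≤ Q.length * esize Q := by
    intro y hy
    rw [mem_range] at hy
    calc ∑ x ∈ range y, phi (ent Q x y) ≤ ∑ _x ∈ range y, esize Q :=
          sum_le_sum fun x _ => (Nat.sub_le _ _).trans (ent_lt Q x y)
      _ = y * esize Q := by rw [sum_const, card_range, smul_eq_mul]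
      _ ≤ _ := Nat.mul_le_mul_right _ hy.le
  calc ∑ y ∈ range Q.length, ∑ x ∈ range y, phi (ent Q x y)
      ≤ ∑ _y ∈ range Q.length, Q.length * esize Q := sum_le_sum h
    _ = _ := by rw [sum_const, card_range, smul_eq_mul, mul_assoc]

theorem esize_pow_two (k : ℕ) : esize (2 ^ k : ℕ) = k + 1 := by
  rw [esize_nat, Nat.size_pow]

/-- bound for the sizes of the matrices in the reduction -/
def redB (Q : List (List ℕ)) : ℕ :=
  esize Q + (Q.length + 4 * num Q) *
    (2 * ((Q.length + 4 * num Q) * (2 * (esize Q + 2) + 1)) + 1)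

theorem esize_iter_le (Q : List (List ℕ)) {k : ℕ} (hk : k ≤ num Q) :
    esize (step^[k] Q) ≤ redB Q := by
  have hM : 2 ≤ 2 ^ (esize Q + 1) := by
    calc 2 = 2 ^ 1 := rfl
      _ ≤ _ := Nat.pow_le_pow_right (by norm_num) (by omega)
  have hB : ∀ x y, ent Q x y ≤ 2 ^ (esize Q + 1) := fun x y =>
    ((Nat.lt_size_self _).le).trans (Nat.pow_le_pow_right (by norm_num)
      ((ent_lt Q x y).trans (by omega)))
  obtain ⟨-, -, h | ⟨n', g, h1, h2, h3⟩⟩ := iter_shape hM hB le_rfl k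
  · rw [h]
    exact Nat.le_add_right _ _
  · rw [h3]
    refine (esize_mk_le n' _ g h2).trans ?_
    rw [esize_pow_two]
    unfold redB
    have h4 : n' ≤ Q.length + 4 * num Q := by omega
    calc n' * (2 * (n' * (2 * (esize Q + 1 + 1) + 1)) + 1)
        ≤ (Q.length + 4 * num Q) *
          (2 * ((Q.length + 4 * num Q) * (2 * (esize Q + 2) + 1)) + 1) := by
          gcongr
      _ ≤ _ := Nat.le_add_left _ _

/-! ### Polynomial time -/

section PT

variable {A : Set Word} {α : Type*} [Enc α]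

theorem PT_insF {Q : α → List (List ℕ)} {u v e c d x y : α → ℕ} (hQ : PT A Q)
    (hu : PT A u) (hv : PT A v) (he : PT A e) (hc : PT A c) (hd : PT A d) (hx : PT A x)
    (hy : PT A y) : PT A (fun a =>
      insF (Q a).length (ent (Q a)) (u a) (v a) (e a) (c a) (d a) (x a) (y a)) := by
  have hN : PT A (fun a => (Q a).length) := hQ.length
  have hN1 : PT A (fun a => (Q a).length + 1) := hN.add (PT.const 1)
  unfold insF
  refine PT.ite (PT.decide_or (PT.decide_and (PT.eqNat hx hu) (PT.eqNat hy hv))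
    (PT.decide_and (PT.eqNat hx hv) (PT.eqNat hy hu))) he ?_
  refine PT.ite (PT.decide_and (PT.lt hx hN) (PT.lt hy hN)) (PT_ent hQ hx hy) ?_
  refine PT.ite (PT.decide_or (PT.decide_and (PT.eqNat hx hu) (PT.eqNat hy hN))
    (PT.decide_and (PT.eqNat hx hN) (PT.eqNat hy hu))) hc ?_
  refine PT.ite (PT.decide_or (PT.decide_and (PT.eqNat hx hN) (PT.eqNat hy hN1))
    (PT.decide_and (PT.eqNat hx hN1) (PT.eqNat hy hN))) (PT.const 1) ?_
  exact PT.ite (PT.decide_or (PT.decide_and (PT.eqNat hx hN1) (PT.eqNat hy hv))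
    (PT.decide_and (PT.eqNat hx hv) (PT.eqNat hy hN1))) hd (PT.const 0)

theorem PT_ins {Q : α → List (List ℕ)} {u v e c d : α → ℕ} (hQ : PT A Q)
    (hu : PT A u) (hv : PT A v) (he : PT A e) (hc : PT A c) (hd : PT A d) :
    PT A (fun a => ins (Q a) (u a) (v a) (e a) (c a) (d a)) := by
  unfold ins
  refine PT_mk (hQ.length.add (PT.const 2)) ((PBd.length hQ).add (PBd.const 2)) ?_
  have h0 : PT A (fun p : (α × ℕ) × ℕ => p.1.1) := PT.fst'.fst
  exact PT_insF (hQ.comp h0) (hu.comp h0) (hv.comp h0) (he.comp h0) (hc.comp h0) (hd.comp h0)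
    PT.fst'.snd PT.snd'

theorem PT_pairs {n : α → ℕ} (hn : PT A n) (hnb : PBd n) : PT A (fun a => pairs (n a)) := by
  unfold pairs
  refine PT.flatten (PT.map (f := fun (a : α) i => (List.range (n a)).map fun j => (i, j))
    (PT.range hn hnb) ?_)
  exact PT.map (f := fun (p : α × ℕ) j => (p.2, j))
    (PT.range (hn.comp PT.fst') (hnb.comp (PT.fst' (A := A)))) (PT.fst'.snd.pair PT.snd')

theorem PT_find {Q : α → List (List ℕ)} (hQ : PT A Q) : PT A (fun a => find (Q a)) := by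
  unfold find
  refine PT.head? (PT.filter (f := fun (a : α) p => decide (p.1 < p.2) &&
    decide (2 ≤ ent (Q a) p.1 p.2)) (PT_pairs hQ.length (PBd.length hQ)) ?_)
  exact PT.and (PT.lt PT.snd'.fst PT.snd'.snd)
    (PT.le (PT.const 2) (PT_ent (hQ.comp PT.fst') PT.snd'.fst PT.snd'.snd))

theorem PT_step {Q : α → List (List ℕ)} (hQ : PT A Q) : PT A (fun a => step (Q a)) := by
  have hw : PT A (fun q : α × (ℕ × ℕ) => ent (Q q.1) q.2.1 q.2.2) :=
    PT_ent (hQ.comp PT.fst') PT.snd'.fst PT.snd'.snd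
  have h1 : PT A (fun q : α × (ℕ × ℕ) => ins (ins (Q q.1) q.2.1 q.2.2 (ent (Q q.1) q.2.1 q.2.2 % 2)
      (ent (Q q.1) q.2.1 q.2.2 / 2) 2) q.2.2 ((Q q.1).length + 1) 1 1 1) :=
    PT_ins (PT_ins (hQ.comp PT.fst') PT.snd'.fst PT.snd'.snd (hw.mod (PT.const 2)) hw.half
      (PT.const 2)) PT.snd'.snd ((hQ.comp PT.fst').length.add (PT.const 1)) (PT.const 1)
      (PT.const 1) (PT.const 1)
  refine (PT.optCase (PT_find hQ) hQ (g := fun a p => ins (ins (Q a) p.1 p.2
    (ent (Q a) p.1 p.2 % 2) (ent (Q a) p.1 p.2 / 2) 2) p.2 ((Q a).length + 1) 1 1 1) h1).congr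
    fun a => ?_
  unfold step
  rcases find (Q a) with _ | p <;> rfl

theorem PT_num {Q : α → List (List ℕ)} (hQ : PT A Q) : PT A (fun a => num (Q a)) :=
  (hQ.length.mul hQ.length).mul hQ.size

theorem PBd_num {Q : α → List (List ℕ)} (hQ : PT A Q) : PBd (fun a => num (Q a)) :=
  ((PBd.length hQ).mul (PBd.length hQ)).mul hQ.pbd

theorem PBd_redB {Q : α → List (List ℕ)} (hQ : PT A Q) : PBd (fun a => redB (Q a)) := by
  have h1 := PBd_num hQ
  have h2 := PBd.length hQ
  have h3 := hQ.pbd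
  have h4 : PBd (fun a => (Q a).length + 4 * num (Q a)) := h2.add ((PBd.const 4).mul h1)
  unfold redB
  exact h3.add (h4.mul (((PBd.const 2).mul (h4.mul (((PBd.const 2).mul (h3.add
    (PBd.const 2))).add (PBd.const 1)))).add (PBd.const 1)))

theorem PT_red {Q : α → List (List ℕ)} (hQ : PT A Q) : PT A (fun a => red (Q a)) := by
  unfold red
  exact PT.iterate (PT_num hQ) (PBd_num hQ) hQ (PT_step PT.id) (PBd_redB hQ)
    fun a j hj => esize_iter_le (Q a) hj

end PT

end Vale.Agent.P308.Hafnian
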